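import Vale.Agent.Lib.P089.B.Bb0

/-!
# P089 Part B-b: pruning
-/

namespace P089

open scoped Classical

variable {V S : Type} {act : V → S → V} {Del : Finset (V × S)}

/-- symmetry of the pruned graph -/
theorem nbD_symm (hinv : ∀ v s, act (act v s) s = v)
    (hD : ∀ v s, (v, s) ∈ Del → (act v s, s) ∈ Del) {v y : V} {s : S}
    (h : nbD act Del v s = some y) : nbD act Del y s = some v := by
  rw [nbD_eq_some] at h ⊢
  obtain ⟨h1, rfl⟩ := h
  refine ⟨fun h2 => h1 ?_, hinv v s⟩
  have := hD _ _ h2
  rwa [hinv] at this

theorem walk_symm (hinv : ∀ v s, act (act v s) s = v)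
    (hD : ∀ v s, (v, s) ∈ Del → (act v s, s) ∈ Del) {v y : V} {w : List S}
    (h : walk (nbD act Del) v w = some y) : walk (nbD act Del) y w.reverse = some v := by
  induction w generalizing v with
  | nil =>
    have : v = y := Option.some.inj h
    rw [this]
    rfl
  | cons s w ih =>
    rw [bwalk_cons, Option.bind_eq_some_iff] at h
    obtain ⟨v', h1, h2⟩ := h
    rw [List.reverse_cons, bwalk_append, ih h2, Option.bind_some, bwalk_cons,
      nbD_symm hinv hD h1, Option.bind_some]
    rfl

/-- deleting the first edge of a simple closed walk keeps connectivity -/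
theorem conn_delete [DecidableEq V] (hinv : ∀ v s, act (act v s) s = v)
    (hD : ∀ v s, (v, s) ∈ Del → (act v s, s) ∈ Del)
    (hc : ∀ x y, ∃ w, walk (nbD act Del) x w = some y) {v : V} {i : S} {w : List S}
    (hs : SimpCl act v (i :: w)) (hw : walk (nbD act Del) v (i :: w) = some v) :
    ∀ x y, ∃ w', walk (nbD act (insert (v, i) (insert (act v i, i) Del))) x w' = some y := by
  obtain ⟨D', hD'⟩ : ∃ D' : Finset (V × S), D' = insert (v, i) (insert (act v i, i) Del) := ⟨_, rfl⟩
  have key : ∀ x y, ∃ w', walk (nbD act D') x w' = some y := by
    have hmem : ∀ p : V × S, p ∈ D' ↔ p = (v, i) ∨ p = (act v i, i) ∨ p ∈ Del := by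
      intro p
      rw [hD', Finset.mem_insert, Finset.mem_insert]
    have hD'' : ∀ u s, (u, s) ∈ D' → (act u s, s) ∈ D' := by
      intro u s hu
      rw [hmem] at hu ⊢
      rcases hu with hu | hu | hu
      · rw [Prod.mk.injEq] at hu
        rw [hu.1, hu.2]
        exact Or.inr (Or.inl rfl)
      · rw [Prod.mk.injEq] at hu
        rw [hu.1, hu.2, hinv]
        exact Or.inl rfl
      · exact Or.inr (Or.inr (hD _ _ hu))
    -- the detour
    have hgo : go act v (i :: w) = v := hs.closed
    have hdet : walk (nbD act D') (act v i) w = some v := by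
      have h1 : go act (act v i) w = v := hgo
      have h2 : walk (nbD act D') (act v i) w = some (go act (act v i) w) := by
        rw [walk_isSome_iff]
        intro k hk hmk
        rw [hmem] at hmk
        have hw' : walk (nbD act Del) v (i :: w) = some (go act v (i :: w)) := by
          rw [hgo]
          exact hw
        rw [walk_isSome_iff] at hw'
        rcases hmk with hmk | hmk | hmk
        · rw [Prod.mk.injEq] at hmk
          refine hs.inj 0 (k + 1) (by omega) (by simpa using hk) ?_
          rw [List.take_zero, List.take_succ_cons, bgo_cons, hmk.1]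
          rfl
        · rw [Prod.mk.injEq] at hmk
          rcases Nat.eq_zero_or_pos k with hk0 | hk0
          · subst hk0
            have hred : Red (i :: w) := hs.red
            cases w with
            | nil => simp at hk
            | cons j w =>
              have h3 : i ≠ j := by
                have := List.isChain_cons_cons.1 hred
                exact this.1
              exact h3 hmk.2.symm
          · refine hs.inj 1 (k + 1) (by omega) (by simpa using hk) ?_
            rw [List.take_succ_cons, List.take_succ_cons, bgo_cons, bgo_cons, hmk.1]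
            rfl
        · have h3 := hw' (k + 1) (by simpa using hk)
          apply h3
          rw [List.take_succ_cons, bgo_cons]
          simpa using hmk
      rw [h2, h1]
    -- one step
    have hstep : ∀ x s y, nbD act Del x s = some y → ∃ w', walk (nbD act D') x w' = some y := by
      intro x s y hxy
      rw [nbD_eq_some] at hxy
      by_cases h1 : (x, s) ∈ D'
      · rw [hmem] at h1
        rcases h1 with h1 | h1 | h1
        · rw [Prod.mk.injEq] at h1
          refine ⟨w.reverse, ?_⟩
          rw [← hxy.2, h1.1, h1.2]
          exact walk_symm hinv hD'' hdet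
        · rw [Prod.mk.injEq] at h1
          refine ⟨w, ?_⟩
          rw [← hxy.2, h1.1, h1.2, hinv]
          exact hdet
        · exact absurd h1 hxy.1
      · refine ⟨[s], ?_⟩
        rw [bwalk_cons]
        have : nbD act D' x s = some y := by
          rw [nbD_eq_some]
          exact ⟨h1, hxy.2⟩
        rw [this]
        rfl
    have hall : ∀ (w₀ : List S) x y, walk (nbD act Del) x w₀ = some y →
        ∃ w', walk (nbD act D') x w' = some y := by
      intro w₀
      induction w₀ with
      | nil =>
        intro x y h1
        exact ⟨[], h1⟩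
      | cons s w₀ ih =>
        intro x y h1
        rw [bwalk_cons, Option.bind_eq_some_iff] at h1
        obtain ⟨x', h2, h3⟩ := h1
        obtain ⟨a, ha⟩ := hstep x s x' h2
        obtain ⟨b, hb⟩ := ih x' y h3
        refine ⟨a ++ b, ?_⟩
        rw [bwalk_append, ha, Option.bind_some]
        exact hb
    intro x y
    obtain ⟨w₀, hw₀⟩ := hc x y
    exact hall w₀ x y hw₀
  rw [hD'] at key
  convert key

theorem prune_aux (hinv : ∀ v s, act (act v s) s = v)
    (Z : Finset (V × List S)) : ∀ (n : ℕ) (Del : Finset (V × S)),
      (∀ v s, (v, s) ∈ Del → (act v s, s) ∈ Del) →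
      (∀ x y, ∃ w, walk (nbD act Del) x w = some y) →
      (Z.filter fun p => SimpCl act p.1 p.2 ∧ walk (nbD act Del) p.1 p.2 = some p.1).card ≤ n →
    ∃ Del' : Finset (V × S), Del'.card ≤ Del.card + 2 * n ∧
      (∀ v s, (v, s) ∈ Del' → (act v s, s) ∈ Del') ∧
      (∀ x y, ∃ w, walk (nbD act Del') x w = some y) ∧
      ∀ v w, (v, w) ∈ Z → SimpCl act v w → walk (nbD act Del') v w ≠ some v := by
  intro n
  induction n with
  | zero =>
    intro Del h1 h2 h3
    refine ⟨Del, by omega, h1, h2, fun v w hZ hs hw => ?_⟩
    have h4 : (v, w) ∈ Z.filter fun p => SimpCl act p.1 p.2 ∧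
        walk (nbD act Del) p.1 p.2 = some p.1 := Finset.mem_filter.2 ⟨hZ, hs, hw⟩
    rw [Finset.card_eq_zero.1 (Nat.le_zero.1 h3)] at h4
    exact absurd h4 (Finset.notMem_empty _)
  | succ n ih =>
    intro Del h1 h2 h3
    by_cases hne : (Z.filter fun p => SimpCl act p.1 p.2 ∧
        walk (nbD act Del) p.1 p.2 = some p.1).Nonempty
    · obtain ⟨⟨v, w⟩, hvw⟩ := hne
      have hvw' := Finset.mem_filter.1 hvw
      obtain ⟨hZ, hs, hw⟩ := hvw'
      cases w with
      | nil => exact absurd rfl hs.ne
      | cons i w =>
        have h5 := conn_delete hinv h1 h2 hs hw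
        have h6 : ∀ u s, (u, s) ∈ insert (v, i) (insert (act v i, i) Del) →
            (act u s, s) ∈ insert (v, i) (insert (act v i, i) Del) := by
          intro u s hu
          rw [Finset.mem_insert, Finset.mem_insert] at hu ⊢
          rcases hu with hu | hu | hu
          · rw [Prod.mk.injEq] at hu
            rw [hu.1, hu.2]
            exact Or.inr (Or.inl rfl)
          · rw [Prod.mk.injEq] at hu
            rw [hu.1, hu.2, hinv]
            exact Or.inl rfl
          · exact Or.inr (Or.inr (h1 _ _ hu))
        have h7 : (Z.filter fun p => SimpCl act p.1 p.2 ∧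
            walk (nbD act (insert (v, i) (insert (act v i, i) Del))) p.1 p.2 = some p.1).card <
            (Z.filter fun p => SimpCl act p.1 p.2 ∧
              walk (nbD act Del) p.1 p.2 = some p.1).card := by
          refine Finset.card_lt_card ⟨?_, ?_⟩
          · intro p hp
            rw [Finset.mem_filter] at hp ⊢
            refine ⟨hp.1, hp.2.1, ?_⟩
            have h8 := hp.2.2
            have h9 : go act p.1 p.2 = p.1 := hp.2.1.closed
            have h10 : walk (nbD act (insert (v, i) (insert (act v i, i) Del))) p.1 p.2 =
                some (go act p.1 p.2) := by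
              rw [h9]
              exact h8
            rw [walk_isSome_iff] at h10
            have h11 : walk (nbD act Del) p.1 p.2 = some (go act p.1 p.2) := by
              rw [walk_isSome_iff]
              intro k hk hm
              exact h10 k hk (Finset.mem_insert_of_mem (Finset.mem_insert_of_mem hm))
            rw [h9] at h11
            exact h11
          · intro hsub
            have h8 := Finset.mem_filter.1 (hsub hvw)
            have h9 : walk (nbD act (insert (v, i) (insert (act v i, i) Del))) v (i :: w) =
                some (go act v (i :: w)) := by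
              rw [hs.closed]
              exact h8.2.2
            rw [walk_isSome_iff] at h9
            exact h9 0 (by simp) (Finset.mem_insert_self _ _)
        obtain ⟨Del', a1, a2, a3, a4⟩ := ih (insert (v, i) (insert (act v i, i) Del)) h6 h5
          (by omega)
        refine ⟨Del', ?_, a2, a3, a4⟩
        have b1 := Finset.card_insert_le (v, i) (insert (act v i, i) Del)
        have b2 := Finset.card_insert_le (act v i, i) Del
        omega
    · rw [Finset.not_nonempty_iff_eq_empty] at hne
      obtain ⟨Del', a1, a2, a3, a4⟩ := ih Del h1 h2 (by rw [hne, Finset.card_empty]; omega)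
      exact ⟨Del', by omega, a2, a3, a4⟩

/-- pruning: one edge of every short simple closed walk is deleted -/
theorem prune (hinv : ∀ v s, act (act v s) s = v) (hc : ∀ x y, ∃ w, go act x w = y)
    (Z : Finset (V × List S)) :
    ∃ Del : Finset (V × S), Del.card ≤ 2 * Z.card ∧
      (∀ v s, (v, s) ∈ Del → (act v s, s) ∈ Del) ∧
      (∀ x y, ∃ w, walk (nbD act Del) x w = some y) ∧
      ∀ v w, (v, w) ∈ Z → SimpCl act v w → walk (nbD act Del) v w ≠ some v := by
  obtain ⟨Del, h1, h2, h3, h4⟩ := prune_aux hinv Z Z.card (∅ : Finset (V × S))
    (fun v s h => absurd h (Finset.notMem_empty _)) (fun x y => by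
      obtain ⟨w, hw⟩ := hc x y
      refine ⟨w, ?_⟩
      have : walk (nbD act ∅) x w = some (go act x w) := by
        rw [walk_isSome_iff]
        intro k hk
        exact Finset.notMem_empty _
      rw [this, hw]) (Finset.card_filter_le _ _)
  refine ⟨Del, ?_, h2, h3, h4⟩
  rw [Finset.card_empty, zero_add] at h1
  exact h1

end P089
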