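import Vale.Agent.Lib.P089.B.Bb0
import Vale.Agent.Lib.P089.Ch.Main

/-!
# P089 Part B-b: Poincare inequality

`E_0 f = ∑_{x,i} (f x ^ 2 - f x f(x.i)) = 1/2 ∑_{x,i} (f x - f(x.i))^2` (reindex by the involution).

`poin_unpruned`: `c' = ` the constant of `partCh` for `d, h`.  Let `∑ f = 0`.  Median: let `m` be the least value of
`f` with `2 |{f ≤ m}| ≥ |V|`; then `2 |{f > m}| ≤ |V|` and `2 |{f < m}| ≤ |V|`.
`g₊ = max (f - m) 0`, `g₋ = max (m - f) 0`, so `f - m = g₊ - g₋`, `g₊ g₋ = 0`;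
`(f x - f y)^2 ≥ (g₊ x - g₊ y)^2 + (g₋ x - g₋ y)^2`, so `E_0 f ≥ E_0 g₊ + E_0 g₋ ≥ c' ∑ (g₊² + g₋²)
= c' ∑ (f - m)² = c' (∑ f² + m² |V|)`.  (`partCh` with `lk = True`, `U = {f > m}` resp. `{f < m}`.)

`poin_pruned`: with `ε x i = 1` if the dart is kept, `-1` otherwise,
`2 E_D f - E_0 f = ∑_{x,i} (f x ^ 2 - ε f x f(x.i)) = 1/2 ∑_{x,i} (f x - ε f(x.i))^2 ≥ 0`.
-/

namespace P089

open scoped Classical

/-- reindexing by the involution -/
theorem Bb3_reindex {d : ℕ} {V : Type} [Fintype V] {act : V → Fin d → V}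
    (hinv : ∀ v s, act (act v s) s = v) (g : V → ℝ) :
    ∑ x, ∑ i, g (act x i) = ∑ x, ∑ _i : Fin d, g x := by
  rw [Finset.sum_comm, Finset.sum_comm (f := fun x (_ : Fin d) => g x)]
  refine Finset.sum_congr rfl fun i _ => ?_
  exact Finset.sum_nbij' (fun x => act x i) (fun x => act x i) (fun _ _ => Finset.mem_univ _)
    (fun _ _ => Finset.mem_univ _) (fun x _ => hinv x i) (fun x _ => hinv x i) (fun _ _ => rfl)

/-- the quadratic form as a sum of squares, with signs -/
theorem Bb3_form {d : ℕ} {V : Type} [Fintype V] {act : V → Fin d → V}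
    (hinv : ∀ v s, act (act v s) s = v) (f : V → ℝ) (ε : V → Fin d → ℝ)
    (hε : ∀ x i, ε x i ^ 2 = 1) :
    ∑ x, (d * f x ^ 2 - ∑ i, ε x i * (f x * f (act x i))) =
      1 / 2 * ∑ x, ∑ i, (f x - ε x i * f (act x i)) ^ 2 := by
  have h1 : ∑ x, ∑ i, (f x - ε x i * f (act x i)) ^ 2 =
      ∑ x, ∑ _i : Fin d, f x ^ 2 + ∑ x, ∑ i, f (act x i) ^ 2 -
        2 * ∑ x, ∑ i, ε x i * (f x * f (act x i)) := by
    rw [Finset.mul_sum, ← Finset.sum_add_distrib, ← Finset.sum_sub_distrib]
    refine Finset.sum_congr rfl fun x _ => ?_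
    rw [Finset.mul_sum, ← Finset.sum_add_distrib, ← Finset.sum_sub_distrib]
    refine Finset.sum_congr rfl fun i _ => ?_
    have h2 := hε x i
    calc (f x - ε x i * f (act x i)) ^ 2
        = f x ^ 2 + ε x i ^ 2 * f (act x i) ^ 2 - 2 * (ε x i * (f x * f (act x i))) := by ring
      _ = _ := by rw [h2, one_mul]
  rw [h1, Bb3_reindex hinv (fun y => f y ^ 2)]
  have h3 : ∑ x, ∑ _i : Fin d, f x ^ 2 = ∑ x, d * f x ^ 2 :=
    Finset.sum_congr rfl fun x _ => by
      rw [Finset.sum_const, Finset.card_univ, Fintype.card_fin, nsmul_eq_mul]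
  rw [h3, Finset.sum_sub_distrib]
  ring

theorem Bb3_form1 {d : ℕ} {V : Type} [Fintype V] {act : V → Fin d → V}
    (hinv : ∀ v s, act (act v s) s = v) (f : V → ℝ) :
    ∑ x, (d * f x ^ 2 - ∑ i, f x * f (act x i)) =
      1 / 2 * ∑ x, ∑ i, (f x - f (act x i)) ^ 2 := by
  have h := Bb3_form hinv f (fun _ _ => 1) (fun _ _ => one_pow 2)
  simpa only [one_mul] using h

/-- a median -/
theorem Bb3_median {V : Type} [Fintype V] [Nonempty V] (f : V → ℝ) :
    ∃ m : ℝ, 2 * (Finset.univ.filter fun x => m < f x).card ≤ Fintype.card V ∧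
      2 * (Finset.univ.filter fun x => f x < m).card ≤ Fintype.card V := by
  obtain ⟨x1, -, hx1⟩ := Finset.exists_max_image (Finset.univ : Finset V) f
    Finset.univ_nonempty
  have hne : (Finset.univ.filter fun x : V =>
      Fintype.card V ≤ 2 * (Finset.univ.filter fun y => f y ≤ f x).card).Nonempty := by
    refine ⟨x1, Finset.mem_filter.2 ⟨Finset.mem_univ _, ?_⟩⟩
    rw [Finset.filter_true_of_mem hx1, Finset.card_univ]
    omega
  obtain ⟨x0, hx0, hmin⟩ := Finset.exists_min_image _ f hne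
  rw [Finset.mem_filter] at hx0
  refine ⟨f x0, ?_, ?_⟩
  · have h1 : (Finset.univ.filter fun y => f y ≤ f x0).card +
        (Finset.univ.filter fun y => ¬ f y ≤ f x0).card = Fintype.card V := by
      rw [Finset.card_filter_add_card_filter_not, Finset.card_univ]
    simp only [not_le] at h1
    have h2 := hx0.2
    omega
  · by_contra hcon
    rw [not_le] at hcon
    have hne2 : (Finset.univ.filter fun x => f x < f x0).Nonempty := by
      rw [← Finset.card_pos]
      omega
    obtain ⟨y, hy, hmax⟩ := Finset.exists_max_image _ f hne2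
    rw [Finset.mem_filter] at hy
    have h3 : (Finset.univ.filter fun x => f x < f x0).card ≤
        (Finset.univ.filter fun x => f x ≤ f y).card :=
      Finset.card_le_card fun x hx => Finset.mem_filter.2 ⟨Finset.mem_univ _, hmax x hx⟩
    have h4 := hmin y (Finset.mem_filter.2 ⟨Finset.mem_univ _, by omega⟩)
    linarith [hy.2]

theorem Bb3_scalar (a b : ℝ) :
    (max a 0 - max b 0) ^ 2 + (max (-a) 0 - max (-b) 0) ^ 2 ≤ (a - b) ^ 2 := by
  rcases le_total 0 a with ha | ha <;> rcases le_total 0 b with hb | hb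
  · rw [max_eq_left ha, max_eq_left hb, max_eq_right (by linarith), max_eq_right (by linarith)]
    nlinarith
  · rw [max_eq_left ha, max_eq_right hb, max_eq_right (by linarith), max_eq_left (by linarith)]
    nlinarith [mul_nonneg ha (neg_nonneg.2 hb)]
  · rw [max_eq_right ha, max_eq_left hb, max_eq_left (by linarith), max_eq_right (by linarith)]
    nlinarith [mul_nonneg hb (neg_nonneg.2 ha)]
  · rw [max_eq_right ha, max_eq_right hb, max_eq_left (by linarith), max_eq_left (by linarith)]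
    nlinarith

theorem Bb3_sq (a : ℝ) : max a 0 ^ 2 + max (-a) 0 ^ 2 = a ^ 2 := by
  rcases le_total 0 a with ha | ha
  · rw [max_eq_left ha, max_eq_right (by linarith)]
    ring
  · rw [max_eq_right ha, max_eq_left (by linarith)]
    ring

theorem poin_unpruned (d : ℕ) (h : ℝ) (hh : 0 < h) :
    ∃ c : ℝ, 0 < c ∧ ∀ (V : Type) [Fintype V] (act : V → Fin d → V),
      (∀ v s, act (act v s) s = v) →
      (∀ F : Finset V, (F.card : ℝ) ≤ 19 / 20 * Fintype.card V →
        (((F ×ˢ (Finset.univ : Finset (Fin d))).filter fun p => act p.1 p.2 ∈ F).card : ℝ) ≤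
          (d - h) * F.card) →
      ∀ f : V → ℝ, ∑ x, f x = 0 →
        c * ∑ x, f x ^ 2 ≤ ∑ x, (d * f x ^ 2 - ∑ i, f x * f (act x i)) := by
  obtain ⟨c, hc, hP⟩ := partCh d h hh
  refine ⟨c, hc, ?_⟩
  intro V _ act hinv hexp f hf
  rcases isEmpty_or_nonempty V with hV | hV
  · simp
  obtain ⟨m, hm1, hm2⟩ := Bb3_median f
  -- the Dirichlet inequality
  have key : ∀ (U : Set V) (g : V → ℝ), 2 * (Finset.univ.filter fun x => x ∈ U).card ≤
      Fintype.card V → (∀ v, g v ≠ 0 → v ∈ U) →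
      c * ∑ x, g x ^ 2 ≤ ∑ x, (d * g x ^ 2 - ∑ i, g x * g (act x i)) := by
    intro U g hU hg
    have h1 := hP (Fin d) V act (fun _ _ => True) hinv (fun _ _ _ => trivial) (fun v => by
      refine (Finset.card_le_univ _).trans ?_
      rw [Fintype.card_fin]) U (fun F hF => by
        have h2 : F.card ≤ (Finset.univ.filter fun x => x ∈ U).card :=
          Finset.card_le_card fun x hx => Finset.mem_filter.2 ⟨Finset.mem_univ _, hF x hx⟩
        have h3 : 2 * F.card ≤ Fintype.card V := by omega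
        have h4 : 2 * (F.card : ℝ) ≤ Fintype.card V := by exact_mod_cast h3
        have h5 : (0 : ℝ) ≤ F.card := Nat.cast_nonneg _
        have h6 := hexp F (by linarith)
        simpa only [true_and] using h6)
      (Finsupp.equivFunOnFinite.symm g) (fun v hv => hg v (by
        rw [Finsupp.mem_support_iff] at hv
        exact hv))
    have e1 : ∀ k : V → ℝ, (∀ v, g v = 0 → k v = 0) →
        ∑ v ∈ (Finsupp.equivFunOnFinite.symm g).support, k v = ∑ v, k v := by
      intro k hk
      refine Finset.sum_subset (Finset.subset_univ _) fun v _ hv => hk v ?_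
      rw [Finsupp.notMem_support_iff] at hv
      exact hv
    have e2 := e1 (fun v => g v ^ 2) (fun v hv => by simp [hv])
    have e3 := e1 (fun v => d * g v ^ 2 - ∑ s, g v * g (act v s)) (fun v hv => by simp [hv])
    simp only [if_true, Finsupp.equivFunOnFinite_symm_apply_apply] at h1
    rw [e2, e3] at h1
    exact h1
  have k1 := key {x | m < f x} (fun x => max (f x - m) 0) hm1 (fun v hv => by
    by_contra hcon
    have h1 : f v - m ≤ 0 := by
      have : f v ≤ m := not_lt.1 (show ¬ (m < f v) from hcon)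
      linarith
    exact hv (max_eq_right h1))
  have k2 := key {x | f x < m} (fun x => max (-(f x - m)) 0) hm2 (fun v hv => by
    by_contra hcon
    have h1 : -(f v - m) ≤ 0 := by
      have : m ≤ f v := not_lt.1 (show ¬ (f v < m) from hcon)
      linarith
    exact hv (max_eq_right h1))
  rw [Bb3_form1 hinv] at k1 k2 ⊢
  have h1 : ∑ x, ∑ i, (max (f x - m) 0 - max (f (act x i) - m) 0) ^ 2 +
      ∑ x, ∑ i, (max (-(f x - m)) 0 - max (-(f (act x i) - m)) 0) ^ 2 ≤
      ∑ x, ∑ i, (f x - f (act x i)) ^ 2 := by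
    rw [← Finset.sum_add_distrib]
    refine Finset.sum_le_sum fun x _ => ?_
    rw [← Finset.sum_add_distrib]
    refine Finset.sum_le_sum fun i _ => ?_
    refine (Bb3_scalar _ _).trans (le_of_eq ?_)
    ring
  have h2 : ∑ x, max (f x - m) 0 ^ 2 + ∑ x, max (-(f x - m)) 0 ^ 2 =
      ∑ x, f x ^ 2 + Fintype.card V * m ^ 2 := by
    rw [← Finset.sum_add_distrib]
    have h3 : ∀ x, max (f x - m) 0 ^ 2 + max (-(f x - m)) 0 ^ 2 =
        f x ^ 2 - 2 * m * f x + m ^ 2 := fun x => by
      rw [Bb3_sq]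
      ring
    rw [Finset.sum_congr rfl fun x _ => h3 x, Finset.sum_add_distrib, Finset.sum_sub_distrib,
      ← Finset.mul_sum, hf, Finset.sum_const, Finset.card_univ, nsmul_eq_mul]
    ring
  have h4 : 0 ≤ c * (Fintype.card V * m ^ 2) := by positivity
  have h5 : c * (∑ x, max (f x - m) 0 ^ 2 + ∑ x, max (-(f x - m)) 0 ^ 2) =
      c * ∑ x, f x ^ 2 + c * (Fintype.card V * m ^ 2) := by
    rw [h2, mul_add]
  rw [mul_add] at h5
  linarith

theorem poin_pruned {d : ℕ} {V : Type} [Fintype V] {act : V → Fin d → V}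
    (hinv : ∀ v s, act (act v s) s = v) (Del : Finset (V × Fin d)) (f : V → ℝ) :
    1 / 2 * ∑ x, (d * f x ^ 2 - ∑ i, f x * f (act x i)) ≤
      ∑ x, (d * f x ^ 2 - ∑ i, f x * (if (x, i) ∈ Del then 0 else f (act x i))) := by
  have h1 := Bb3_form hinv f (fun x i => if (x, i) ∈ Del then -1 else 1) (fun x i => by
    split_ifs <;> norm_num)
  have h2 : 0 ≤ ∑ x, ∑ i, (f x - (if (x, i) ∈ Del then -1 else 1) * f (act x i)) ^ 2 :=
    Finset.sum_nonneg fun x _ => Finset.sum_nonneg fun i _ => sq_nonneg _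
  have h3 : ∑ x, (d * f x ^ 2 - ∑ i, (if (x, i) ∈ Del then -1 else 1) * (f x * f (act x i))) =
      2 * ∑ x, (d * f x ^ 2 - ∑ i, f x * (if (x, i) ∈ Del then 0 else f (act x i))) -
        ∑ x, (d * f x ^ 2 - ∑ i, f x * f (act x i)) := by
    rw [Finset.mul_sum, ← Finset.sum_sub_distrib]
    refine Finset.sum_congr rfl fun x _ => ?_
    have h4 : ∑ i, (if (x, i) ∈ Del then -1 else 1) * (f x * f (act x i)) =
        2 * ∑ i, f x * (if (x, i) ∈ Del then 0 else f (act x i)) -
          ∑ i, f x * f (act x i) := by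
      rw [Finset.mul_sum, ← Finset.sum_sub_distrib]
      refine Finset.sum_congr rfl fun i _ => ?_
      split_ifs <;> ring
    rw [h4]
    ring
  rw [h3] at h1
  linarith

end P089
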