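import Vale.Agent.Lib.P089.B.Bb1
import Vale.Agent.Lib.P089.B.Bb2
import Vale.Agent.Lib.P089.B.Bb3

/-!
# P089 Part B-b: assembly
-/

namespace P089

open scoped Classical

/-- expansion implies connectivity -/
theorem conn_of_exp {V : Type} [Fintype V] {d : ℕ} {h : ℝ} (hh : 0 < h) {act : V → Fin d → V}
    (hinv : ∀ v s, act (act v s) s = v)
    (hexp : ∀ F : Finset V, (F.card : ℝ) ≤ 19 / 20 * Fintype.card V →
        (((F ×ˢ (Finset.univ : Finset (Fin d))).filter fun p => act p.1 p.2 ∈ F).card : ℝ) ≤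
          (d - h) * F.card) (x y : V) : ∃ w, go act x w = y := by
  -- closed sets of at most half the vertices are empty
  have key : ∀ F : Finset V, (F.card : ℝ) ≤ 19 / 20 * Fintype.card V →
      (∀ v ∈ F, ∀ s, act v s ∈ F) → F = ∅ := by
    intro F hF hcl
    have h1 := hexp F hF
    have h2 : (F ×ˢ (Finset.univ : Finset (Fin d))).filter (fun p => act p.1 p.2 ∈ F) =
        F ×ˢ (Finset.univ : Finset (Fin d)) := by
      refine Finset.filter_true_of_mem fun p hp => ?_
      exact hcl _ (Finset.mem_product.1 hp).1 _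
    rw [h2, Finset.card_product, Finset.card_univ, Fintype.card_fin] at h1
    push_cast at h1
    have h3 : h * (F.card : ℝ) ≤ 0 := by linarith
    have h4 : (F.card : ℝ) ≤ 0 := by
      by_contra h5
      exact absurd h3 (not_le.2 (mul_pos hh (not_le.1 h5)))
    have h6 : F.card = 0 := by exact_mod_cast le_antisymm h4 (Nat.cast_nonneg _)
    exact Finset.card_eq_zero.1 h6
  obtain ⟨C, hC⟩ : ∃ C : Finset V, C = Finset.univ.filter fun y => ∃ w, go act x w = y := ⟨_, rfl⟩
  have hmem : ∀ y, y ∈ C ↔ ∃ w, go act x w = y := fun y => by rw [hC]; simp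
  have hcl : ∀ v ∈ C, ∀ s, act v s ∈ C := by
    intro v hv s
    rw [hmem] at hv ⊢
    obtain ⟨w, hw⟩ := hv
    refine ⟨w ++ [s], ?_⟩
    rw [bgo_append, hw]
    rfl
  have hcl' : ∀ v ∈ Cᶜ, ∀ s, act v s ∈ Cᶜ := by
    intro v hv s
    rw [Finset.mem_compl] at hv ⊢
    intro h1
    apply hv
    have := hcl _ h1 s
    rwa [hinv] at this
  have hcard : (C.card : ℝ) + (Cᶜ.card : ℝ) = Fintype.card V := by
    rw [← Finset.card_add_card_compl C]
    push_cast
    rfl
  have h0 : (0 : ℝ) ≤ Fintype.card V := Nat.cast_nonneg _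
  rcases le_total ((C.card : ℝ)) (1 / 2 * Fintype.card V) with h1 | h1
  · have h2 := key C (by linarith) hcl
    have h3 : x ∈ C := (hmem x).2 ⟨[], rfl⟩
    rw [h2] at h3
    exact absurd h3 (Finset.notMem_empty _)
  · have h2 := key Cᶜ (by linarith) hcl'
    by_contra h3
    have h4 : y ∈ Cᶜ := by
      rw [Finset.mem_compl, hmem]
      exact h3
    rw [h2] at h4
    exact absurd h4 (Finset.notMem_empty _)

/-- balls are small -/
theorem ball_card {V : Type} {d : ℕ} (act : V → Fin d → V) (Del : Finset (V × Fin d)) (n : ℕ) :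
    ∀ x : V, ∃ B : Finset V, B.card ≤ (d + 1) ^ n ∧
      ∀ y (w : List (Fin d)), w.length ≤ n → walk (nbD act Del) x w = some y → y ∈ B := by
  induction n with
  | zero =>
    intro x
    refine ⟨{x}, by simp, fun y w hw hy => ?_⟩
    rw [List.length_eq_zero_iff.1 (Nat.le_zero.1 hw)] at hy
    have : x = y := Option.some.inj hy
    rw [this]
    exact Finset.mem_singleton_self _
  | succ n ih =>
    intro x
    choose B hB1 hB2 using ih
    refine ⟨insert x (Finset.univ.biUnion fun s => B (act x s)), ?_, fun y w hw hy => ?_⟩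
    · refine (Finset.card_insert_le _ _).trans ?_
      have h1 : (Finset.univ.biUnion fun s : Fin d => B (act x s)).card ≤ d * (d + 1) ^ n := by
        have := Finset.card_biUnion_le_card_mul (Finset.univ : Finset (Fin d))
          (fun s => B (act x s)) ((d + 1) ^ n) (fun s _ => hB1 _)
        simpa using this
      have h2 : 1 ≤ (d + 1) ^ n := Nat.one_le_pow _ _ (by omega)
      rw [pow_succ]
      nlinarith
    · cases w with
      | nil =>
        have : x = y := Option.some.inj hy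
        rw [this]
        exact Finset.mem_insert_self _ _
      | cons s w =>
        rw [bwalk_cons, Option.bind_eq_some_iff] at hy
        obtain ⟨x', h1, h2⟩ := hy
        rw [nbD_eq_some] at h1
        refine Finset.mem_insert_of_mem (Finset.mem_biUnion.2 ⟨s, Finset.mem_univ _, ?_⟩)
        rw [h1.2]
        exact hB2 x' y w (by simpa using hw) h2

theorem pact_inv {N d : ℕ} (π : Fin d → Equiv.Perm (Fin N)) (v : BV N) (i : Fin d) :
    pact π (pact π v i) i = v := by
  obtain ⟨b, x⟩ := v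
  cases b <;> simp [pact]

theorem pact_ne {N d : ℕ} (π : Fin d → Equiv.Perm (Fin N)) (v : BV N) (i : Fin d) :
    pact π v i ≠ v := by
  intro h
  have := congrArg Prod.fst h
  simp [pact] at this

/-- numerical facts about the constants -/
theorem num_facts {d : ℕ} (hd : 3 ≤ d) {ε : ℝ} (hε : 0 < ε) :
    ∃ D : ℕ, 2 ≤ D ∧ ∀ L : ℕ, 1 ≤ L → 200 * L ≤ D ^ L ∧
      (16 * (2 * d) ^ (100 * L) : ℝ) ≤ ε * (2 * (D : ℝ) ^ L) ∧
      8 * (d + 1) ^ (3 * L) ≤ 2 * D ^ L := by
  obtain ⟨M, hM⟩ : ∃ M : ℕ, M = ⌈8 / ε⌉₊ + 1 := ⟨_, rfl⟩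
  have hM1 : 1 ≤ M := by omega
  have hM2 : 8 ≤ ε * M := by
    have h1 : 8 / ε ≤ (⌈8 / ε⌉₊ : ℝ) := Nat.le_ceil _
    rw [div_le_iff₀ hε] at h1
    rw [hM]
    push_cast
    nlinarith
  have ha : 1 ≤ (2 * d) ^ 100 := Nat.one_le_pow _ _ (by omega)
  have hb : 1 ≤ (d + 1) ^ 3 := Nat.one_le_pow _ _ (by omega)
  obtain ⟨a, ha'⟩ : ∃ a : ℕ, a = (2 * d) ^ 100 := ⟨_, rfl⟩
  obtain ⟨b, hb'⟩ : ∃ b : ℕ, b = (d + 1) ^ 3 := ⟨_, rfl⟩
  rw [← ha'] at ha
  rw [← hb'] at hb
  have hD200 : 200 ≤ 200 * M * a * (4 * b) := by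
    have h1 : 1 ≤ M * a * (4 * b) := by
      have : 0 < M * a * (4 * b) := by positivity
      omega
    calc 200 = 200 * 1 := rfl
      _ ≤ 200 * (M * a * (4 * b)) := Nat.mul_le_mul_left _ h1
      _ = _ := by ring
  refine ⟨200 * M * a * (4 * b), by omega, fun L hL => ⟨?_, ?_, ?_⟩⟩
  · obtain ⟨k, rfl⟩ : ∃ k, L = k + 1 := ⟨L - 1, by omega⟩
    calc 200 * (k + 1) ≤ 200 * 200 ^ k := by
          refine Nat.mul_le_mul_left _ ?_
          exact Nat.lt_pow_self (by norm_num)
      _ = 200 ^ (k + 1) := by rw [pow_succ]; ring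
      _ ≤ _ := Nat.pow_le_pow_left hD200 _
  · have h1 : M * a ^ L ≤ (200 * M * a * (4 * b)) ^ L := by
      calc M * a ^ L ≤ M ^ L * a ^ L := by
            refine Nat.mul_le_mul_right _ ?_
            exact Nat.le_self_pow (by omega) _
        _ = (M * a) ^ L := by rw [mul_pow]
        _ ≤ _ := by
            refine Nat.pow_le_pow_left ?_ _
            calc M * a = M * a * 1 := by ring
              _ ≤ M * a * (200 * (4 * b)) := Nat.mul_le_mul_left _ (by omega)
              _ = _ := by ring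
    have h2 : ((M * a ^ L : ℕ) : ℝ) ≤ (((200 * M * a * (4 * b)) ^ L : ℕ) : ℝ) := by exact_mod_cast h1
    have h3 : ((2 * d : ℝ)) ^ (100 * L) = (a : ℝ) ^ L := by
      rw [ha', pow_mul]
      push_cast
      rfl
    rw [h3]
    push_cast at h2 ⊢
    have h4 : (0 : ℝ) ≤ (a : ℝ) ^ L := by positivity
    calc (16 * (a : ℝ) ^ L) ≤ 2 * (ε * M) * (a : ℝ) ^ L := by nlinarith
      _ = 2 * ε * (M * (a : ℝ) ^ L) := by ring
      _ ≤ 2 * ε * (200 * M * a * (4 * b)) ^ L := by gcongr
      _ = _ := by ring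
  · have h1 : 4 * b ^ L ≤ (200 * M * a * (4 * b)) ^ L := by
      calc 4 * b ^ L ≤ 4 ^ L * b ^ L := by
            refine Nat.mul_le_mul_right _ ?_
            exact Nat.le_self_pow (by omega) _
        _ = (4 * b) ^ L := by rw [mul_pow]
        _ ≤ _ := by
            refine Nat.pow_le_pow_left ?_ _
            have : 0 < 200 * M * a := by positivity
            calc 4 * b = 1 * (4 * b) := by ring
              _ ≤ _ := Nat.mul_le_mul_right _ this
    rw [pow_mul, ← hb']
    calc 8 * b ^ L = 2 * (4 * b ^ L) := by ring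
      _ ≤ _ := Nat.mul_le_mul_left _ h1

/-- one level, for an abstract vertex set -/
theorem level_aux {d : ℕ} {h c ε : ℝ} (hh : 0 < h) {V : Type} [Fintype V] [Nonempty V]
    {act : V → Fin d → V} (hinv : ∀ v s, act (act v s) s = v) (hirr : ∀ v s, act v s ≠ v)
    (hexp : ∀ F : Finset V, (F.card : ℝ) ≤ 19 / 20 * Fintype.card V →
        (((F ×ˢ (Finset.univ : Finset (Fin d))).filter fun p => act p.1 p.2 ∈ F).card : ℝ) ≤
          (d - h) * F.card)
    (hpoin : ∀ f : V → ℝ, ∑ x, f x = 0 →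
        c * ∑ x, f x ^ 2 ≤ ∑ x, (d * f x ^ 2 - ∑ i, f x * f (act x i)))
    {N g r : ℕ} (hcardV : Fintype.card V = 2 * N)
    {Z : Finset (V × List (Fin d))} (hZ1 : Z.card ≤ 8 * (2 * d) ^ g)
    (hZ2 : ∀ v w, w.length < g → SimpCl act v w → (v, w) ∈ Z)
    (n2 : (16 * (2 * d) ^ g : ℝ) ≤ ε * (2 * (N : ℝ)))
    (n3 : 8 * (d + 1) ^ r ≤ 2 * N) :
    ∃ G : BC.IG d, Nonempty G.V ∧ G.Girth g ∧ Fintype.card G.V = 2 * N ∧
      (∀ x y : G.V, ∃ w, walk G.nb x w = some y) ∧
      (∀ F : Finset G.V, (F.card : ℝ) ≤ 19 / 20 * Fintype.card G.V →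
        (G.darts F : ℝ) ≤ (d - h) * F.card) ∧
      ((d : ℝ) - ε) * Fintype.card G.V ≤ G.darts Finset.univ ∧
      (∀ f : G.V → ℝ, ∑ x, f x = 0 →
        c / 2 * ∑ x, f x ^ 2 ≤ ∑ x, (d * f x ^ 2 - ∑ i, f x * G.nbv f x i)) ∧
      ∀ x : G.V, 8 * {y | ∃ w : List (Fin d), w.length ≤ r ∧ walk G.nb x w = some y}.ncard ≤
        Fintype.card G.V := by
  obtain ⟨Del, d1, d2, d3, d4⟩ := prune hinv (conn_of_exp hh hinv hexp) Z
  obtain ⟨G, hG⟩ : ∃ G : BC.IG d, G =
    { V := V
      fin := inferInstance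
      nb := nbD act Del
      symm := fun x s y hxy => nbD_symm hinv d2 hxy
      irr := fun x s hx => hirr x s ((nbD_eq_some.1 hx).2) } := ⟨_, rfl⟩
  refine ⟨G, ?_, ?_, ?_, ?_, ?_, ?_, ?_, ?_⟩ <;> subst hG
  · exact inferInstanceAs (Nonempty V)
  · intro x w hr hne hw
    by_contra hlt
    obtain ⟨x', w', h1, h2, h3⟩ := exists_simple hr hne hw
    exact d4 x' w' (hZ2 x' w' (by omega) h1) h1 h3
  · exact hcardV
  · exact d3
  · intro F hF
    have h1 := hexp F hF
    refine le_trans ?_ h1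
    refine Nat.cast_le.2 (Finset.card_le_card fun p hp => ?_)
    rw [Finset.mem_filter] at hp ⊢
    obtain ⟨hp1, y, hy, hpy⟩ := hp
    refine ⟨hp1, ?_⟩
    have := (nbD_eq_some.1 hpy).2
    rw [this]
    exact hy
  · have h1 : d * (2 * N) ≤ (((Finset.univ : Finset V) ×ˢ (Finset.univ : Finset (Fin d))).filter
        (fun p => ∃ y ∈ (Finset.univ : Finset V), nbD act Del p.1 p.2 = some y)).card + Del.card := by
      have h2 := Finset.card_filter_add_card_filter_not
        (s := (Finset.univ : Finset V) ×ˢ (Finset.univ : Finset (Fin d)))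
        (fun p => ∃ y ∈ (Finset.univ : Finset V), nbD act Del p.1 p.2 = some y)
      rw [Finset.card_product, Finset.card_univ, Finset.card_univ, hcardV, Fintype.card_fin] at h2
      have h3 : (((Finset.univ : Finset V) ×ˢ (Finset.univ : Finset (Fin d))).filter
          fun p => ¬ ∃ y ∈ (Finset.univ : Finset V), nbD act Del p.1 p.2 = some y).card ≤
            Del.card := by
        refine Finset.card_le_card fun p hp => ?_
        rw [Finset.mem_filter] at hp
        by_contra hD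
        exact hp.2 ⟨act p.1 p.2, Finset.mem_univ _, nbD_eq_some.2 ⟨hD, rfl⟩⟩
      have h4 : d * (2 * N) = 2 * N * d := by ring
      omega
    have h5 : (d : ℝ) * (2 * N) ≤ ((((Finset.univ : Finset V) ×ˢ
        (Finset.univ : Finset (Fin d))).filter
        (fun p => ∃ y ∈ (Finset.univ : Finset V), nbD act Del p.1 p.2 = some y)).card : ℝ) +
          Del.card := by exact_mod_cast h1
    have h6 : (Del.card : ℝ) ≤ 16 * (2 * d) ^ g := by
      have : Del.card ≤ 16 * (2 * d) ^ g := by omega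
      exact_mod_cast this
    have h7 : ((Fintype.card V : ℕ) : ℝ) = 2 * N := by
      rw [hcardV]
      push_cast
      rfl
    have h8 : ((d : ℝ) - ε) * Fintype.card V ≤ ((((Finset.univ : Finset V) ×ˢ
        (Finset.univ : Finset (Fin d))).filter
        (fun p => ∃ y ∈ (Finset.univ : Finset V), nbD act Del p.1 p.2 = some y)).card : ℝ) := by
      rw [h7]
      linarith
    exact h8
  · intro f hf
    have h1 := hpoin f hf
    have h2 := poin_pruned hinv Del f
    refine le_trans ?_ (le_trans h2 (le_of_eq ?_))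
    · linarith
    · refine Finset.sum_congr rfl fun x _ => ?_
      congr 1
      refine Finset.sum_congr rfl fun i _ => ?_
      congr 1
      unfold BC.IG.nbv nbD
      by_cases h3 : (x, i) ∈ Del
      · simp only [h3, if_true]
      · simp only [h3, if_false]
  · intro x
    obtain ⟨B, hB1, hB2⟩ := ball_card act Del r x
    have h1 : {y | ∃ w : List (Fin d), w.length ≤ r ∧ walk (nbD act Del) x w = some y} ⊆
        (B : Set V) := by
      rintro y ⟨w, hw1, hw2⟩
      exact hB2 y w hw1 hw2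
    have h2 := Set.ncard_le_ncard h1 B.finite_toSet
    rw [Set.ncard_coe_finset] at h2
    have h3 : 8 * {y | ∃ w : List (Fin d), w.length ≤ r ∧ walk (nbD act Del) x w = some y}.ncard ≤
        Fintype.card V := by
      rw [hcardV]
      omega
    exact h3

/-- one level -/
theorem level {d : ℕ} {h c ε : ℝ} (hh : 0 < h)
    (hBa : ∀ g N : ℕ, 1 ≤ g → 2 * g ≤ N →
      ∃ π : Fin d → Equiv.Perm (Fin N), PExp π h ∧
        ∃ Z : Finset (BV N × List (Fin d)), Z.card ≤ 8 * (2 * d) ^ g ∧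
          ∀ v w, w.length < g → SimpCl (pact π) v w → (v, w) ∈ Z)
    (hpoin : ∀ (V : Type) [Fintype V] (act : V → Fin d → V),
      (∀ v s, act (act v s) s = v) →
      (∀ F : Finset V, (F.card : ℝ) ≤ 19 / 20 * Fintype.card V →
        (((F ×ˢ (Finset.univ : Finset (Fin d))).filter fun p => act p.1 p.2 ∈ F).card : ℝ) ≤
          (d - h) * F.card) →
      ∀ f : V → ℝ, ∑ x, f x = 0 →
        c * ∑ x, f x ^ 2 ≤ ∑ x, (d * f x ^ 2 - ∑ i, f x * f (act x i)))
    {D : ℕ} (hD : 2 ≤ D) {L : ℕ} (hL : 1 ≤ L) (n1 : 200 * L ≤ D ^ L)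
    (n2 : (16 * (2 * d) ^ (100 * L) : ℝ) ≤ ε * (2 * (D : ℝ) ^ L))
    (n3 : 8 * (d + 1) ^ (3 * L) ≤ 2 * D ^ L) :
    ∃ G : BC.IG d, Nonempty G.V ∧ G.Girth (100 * L) ∧ Fintype.card G.V = 2 * D ^ L ∧
      (∀ x y : G.V, ∃ w, walk G.nb x w = some y) ∧
      (∀ F : Finset G.V, (F.card : ℝ) ≤ 19 / 20 * Fintype.card G.V →
        (G.darts F : ℝ) ≤ (d - h) * F.card) ∧
      ((d : ℝ) - ε) * Fintype.card G.V ≤ G.darts Finset.univ ∧
      (∀ f : G.V → ℝ, ∑ x, f x = 0 →
        c / 2 * ∑ x, f x ^ 2 ≤ ∑ x, (d * f x ^ 2 - ∑ i, f x * G.nbv f x i)) ∧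
      ∀ x : G.V, 8 * {y | ∃ w : List (Fin d), w.length ≤ 3 * L ∧ walk G.nb x w = some y}.ncard ≤
        Fintype.card G.V := by
  obtain ⟨π, hexp0, Z, hZ1, hZ2⟩ := hBa (100 * L) (D ^ L) (by omega) (by omega)
  have hcardV : Fintype.card (BV (D ^ L)) = 2 * D ^ L := by
    rw [Fintype.card_prod, Fintype.card_bool, Fintype.card_fin]
  have hN0 : 0 < D ^ L := by positivity
  have : Nonempty (BV (D ^ L)) := ⟨(true, ⟨0, hN0⟩)⟩
  have hexp : ∀ F : Finset (BV (D ^ L)), (F.card : ℝ) ≤ 19 / 20 * Fintype.card (BV (D ^ L)) →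
        ((@Finset.filter _ (fun p => pact π p.1 p.2 ∈ F) (fun _ => Classical.propDecidable _)
          (F ×ˢ (Finset.univ : Finset (Fin d)))).card : ℝ) ≤ (d - h) * F.card := by
    intro F hF
    rw [hcardV] at hF
    push_cast at hF
    have := hexp0 F (by push_cast; exact hF)
    convert this
  refine level_aux hh (pact_inv π) (pact_ne π) ?_ ?_ hcardV hZ1 hZ2 ?_ n3
  · intro F hF
    have := hexp F hF
    convert this
  · refine hpoin (BV (D ^ L)) (pact π) (pact_inv π) ?_
    intro F hF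
    have := hexp F hF
    convert this
  · push_cast
    exact n2

/-- **Part B-b.** -/
theorem partBab (hBa : PartBa) : BC.PartBab := by
  obtain ⟨d, h, hd, hh, hBa⟩ := hBa
  obtain ⟨c, hc, hpoin⟩ := poin_unpruned d h hh
  refine ⟨d, h, c / 2, hd, hh, by positivity, fun ε hε => ?_⟩
  obtain ⟨D, hD, hnum⟩ := num_facts hd hε
  refine ⟨D, by omega, fun L0 K0 => ?_⟩
  have hlev := fun n : ℕ => level (ε := ε) hh hBa hpoin hD (L := L0 + K0 + 1 + n) (by omega)
    (hnum _ (by omega)).1 (hnum _ (by omega)).2.1 (hnum _ (by omega)).2.2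
  choose G a1 a2 a3 a4 a5 a6 a7 a8 using hlev
  refine ⟨G, fun n => L0 + K0 + 1 + n, ?_⟩
  have hK : ∀ k : ℕ, k ≤ D ^ k := fun k =>
    (Nat.lt_pow_self (by omega)).le
  exact
    { mono := fun a b hab => by
        show L0 + K0 + 1 + a < L0 + K0 + 1 + b
        omega
      L0_le := by
        show L0 ≤ L0 + K0 + 1 + 0
        omega
      nonempty := a1
      girth := a2
      card_le := fun n => (a3 n).le
      conn := a4
      b2 := a5
      b3 := a6
      poin := a7
      ball := a8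
      K0_le := fun n => by
        rw [a3]
        have := hK (L0 + K0 + 1 + n)
        omega
      growth := fun n => by
        rw [a3, a3]
        have : D ^ (L0 + K0 + 1 + (n + 1)) = D ^ (L0 + K0 + 1 + n) * D := by
          rw [← add_assoc, pow_succ]
        rw [this]
        nlinarith [Nat.zero_le (D ^ (L0 + K0 + 1 + n))] }

end P089
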