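import Vale.Agent.Lib.P089.Defs

/-!
# P089 Part B-a: interface (random permutations)

Output of B-a: `d` permutations of `Fin N` such that the bipartite graph on `Bool × Fin N` expands and
has few short simple closed walks.
-/

namespace P089

open scoped Classical

/-- vertices of the bipartite graph of `d` permutations of `Fin N` -/
abbrev BV (N : ℕ) : Type := Bool × Fin N

/-- the colour `i` acts by `π_i` on the side `false` and by its inverse on the side `true` -/
def pact {N d : ℕ} (π : Fin d → Equiv.Perm (Fin N)) (v : BV N) (i : Fin d) : BV N :=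
  (!v.1, if v.1 = true then (π i).symm v.2 else π i v.2)

/-- simple closed walk: nonempty, reduced, closed, the vertices before the end are distinct -/
structure SimpCl {V S : Type} (act : V → S → V) (v : V) (w : List S) : Prop where
  ne : w ≠ []
  red : Red w
  closed : go act v w = v
  inj : ∀ i j, i < j → j < w.length → go act v (w.take i) ≠ go act v (w.take j)

/-- expansion of the bipartite graph (sets of at most 95 percent of the vertices) -/
def PExp {N d : ℕ} (π : Fin d → Equiv.Perm (Fin N)) (h : ℝ) : Prop :=
  ∀ F : Finset (BV N), (F.card : ℝ) ≤ 19 / 20 * (2 * N) →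
    (((F ×ˢ (Finset.univ : Finset (Fin d))).filter fun p => pact π p.1 p.2 ∈ F).card : ℝ) ≤
      (d - h) * F.card

/-- Part B-a -/
def PartBa : Prop :=
  ∃ (d : ℕ) (h : ℝ), 3 ≤ d ∧ 0 < h ∧ ∀ g N : ℕ, 1 ≤ g → 2 * g ≤ N →
    ∃ π : Fin d → Equiv.Perm (Fin N), PExp π h ∧
      ∃ Z : Finset (BV N × List (Fin d)), Z.card ≤ 8 * (2 * d) ^ g ∧
        ∀ v w, w.length < g → SimpCl (pact π) v w → (v, w) ∈ Z

end P089
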