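import Vale.Agent.Lib.P089.BC.BDefs
import Vale.Agent.Lib.P089.B.BaDefs

/-!
# P089 Part B-b: deleting darts, basic lemmas on walks
-/

namespace P089

open scoped Classical

variable {V S : Type}

/-- partial graph obtained by deleting the darts in `Del` -/
noncomputable def nbD (act : V → S → V) (Del : Finset (V × S)) (v : V) (s : S) : Option V :=
  if (v, s) ∈ Del then none else some (act v s)

variable {act : V → S → V} {Del : Finset (V × S)}

theorem nbD_eq_some {v y : V} {s : S} :
    nbD act Del v s = some y ↔ (v, s) ∉ Del ∧ act v s = y := by
  unfold nbD
  split_ifs with h
  · simp [h]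
  · simp [h]

theorem walk_nil {nb : V → S → Option V} (v : V) : walk nb v [] = some v := rfl

theorem bwalk_cons {nb : V → S → Option V} (v : V) (s : S) (w : List S) :
    walk nb v (s :: w) = (nb v s).bind fun v' => walk nb v' w := rfl

theorem bwalk_append {nb : V → S → Option V} (w w' : List S) (v : V) :
    walk nb v (w ++ w') = (walk nb v w).bind fun y => walk nb y w' := by
  induction w generalizing v with
  | nil => rfl
  | cons s w ih =>
    rw [List.cons_append, bwalk_cons, bwalk_cons]
    cases h : nb v s with
    | none => rfl
    | some y =>
      simp only [Option.bind_some]
      exact ih y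

theorem bgo_cons (v : V) (s : S) (w : List S) : go act v (s :: w) = go act (act v s) w := rfl

theorem bgo_append (v : V) (w w' : List S) : go act v (w ++ w') = go act (go act v w) w' :=
  List.foldl_append

theorem go_of_walk {v y : V} {w : List S} (h : walk (nbD act Del) v w = some y) :
    go act v w = y := by
  induction w generalizing v with
  | nil => exact Option.some.inj h
  | cons s w ih =>
    rw [bwalk_cons, Option.bind_eq_some_iff] at h
    obtain ⟨v', h1, h2⟩ := h
    rw [nbD_eq_some] at h1
    rw [bgo_cons, h1.2]
    exact ih h2

/-- readability: no dart of the path is deleted -/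
theorem walk_isSome_iff {v : V} {w : List S} :
    walk (nbD act Del) v w = some (go act v w) ↔
      ∀ (k : ℕ) (hk : k < w.length), (go act v (w.take k), w[k]) ∉ Del := by
  induction w generalizing v with
  | nil => simp [walk_nil, go]
  | cons s w ih =>
    rw [bwalk_cons, bgo_cons]
    by_cases h : (v, s) ∈ Del
    · have : nbD act Del v s = none := if_pos h
      rw [this]
      constructor
      · intro h1
        exact absurd h1 (by simp)
      · intro h1
        exact absurd h (h1 0 (by simp))
    · have : nbD act Del v s = some (act v s) := if_neg h
      rw [this, Option.bind_some, ih]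
      constructor
      · intro h1 k hk
        cases k with
        | zero => exact h
        | succ k => exact h1 k (by simpa using hk)
      · intro h1 k hk
        exact h1 (k + 1) (by simpa using hk)

end P089
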