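import Vale.Agent.Lib.P089.B.Bb0

/-!
# P089 Part B-b: a reduced closed walk contains a simple closed walk

Proof: strong induction on the length.  If the vertices `x.(w.take i)`, `i < |w|`, are distinct, then
`(x, w)` is simple.  Otherwise there are `i < j < |w|` with `x.(w.take i) = x.(w.take j)`; use
`x' = x.(w.take i)` and `w' = (w.take j).drop i`, a reduced closed nonempty walk of length
`j - i < |w|`, readable because it is a piece of a readable walk (`walk_isSome_iff` or `bwalk_append`).
-/

namespace P089

open scoped Classical

variable {V S : Type} {act : V → S → V} {Del : Finset (V × S)}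

theorem exists_simple {x : V} {w : List S} (hr : Red w) (hne : w ≠ [])
    (hw : walk (nbD act Del) x w = some x) :
    ∃ x' w', SimpCl act x' w' ∧ w'.length ≤ w.length ∧ walk (nbD act Del) x' w' = some x' := by
  induction h : w.length using Nat.strong_induction_on generalizing x w with
  | _ n ih =>
  by_cases hinj : ∀ i j, i < j → j < w.length → go act x (w.take i) ≠ go act x (w.take j)
  · exact ⟨x, w, ⟨hne, hr, go_of_walk hw, hinj⟩, h.le, hw⟩
  · push Not at hinj
    obtain ⟨i, j, hij, hj, heq⟩ := hinj
    have h1 : w.take i ++ (w.take j).drop i = w.take j := by
      have h2 := List.take_append_drop i (w.take j)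
      rwa [List.take_take, min_eq_left hij.le] at h2
    have h2 : (w.take i ++ (w.take j).drop i) ++ w.drop j = w := by
      rw [h1, List.take_append_drop]
    have hw2 := hw
    rw [← h2, bwalk_append, Option.bind_eq_some_iff] at hw2
    obtain ⟨b, hb, -⟩ := hw2
    have hb2 : go act x (w.take j) = b := by
      rw [← h1]
      exact go_of_walk hb
    rw [bwalk_append, Option.bind_eq_some_iff] at hb
    obtain ⟨a, ha, hab⟩ := hb
    have ha2 : go act x (w.take i) = a := go_of_walk ha
    have hba : b = a := by
      rw [← hb2, ← ha2, heq]
    rw [hba] at hab
    have hlen : ((w.take j).drop i).length = j - i := by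
      rw [List.length_drop, List.length_take, min_eq_left hj.le]
    obtain ⟨x', w', h3, h4, h5⟩ := ih (j - i) (by omega) (x := a) (w := (w.take j).drop i)
      ((hr.take j).drop i) (by
        intro h0
        rw [h0] at hlen
        simp only [List.length_nil] at hlen
        omega) hab hlen
    exact ⟨x', w', h3, by omega, h5⟩

end P089
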